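import Vale.Agent.P359.Gap.Limit.Planar

/-!
# P359 gap: the low levels of the energy tend to the planar energy
-/

namespace Vale.Agent.P359.Gap.Limit

open Matrix Finset Filter Topology
open scoped Nat

noncomputable section

lemma quot_smul {ι : Type} [Fintype ι] (g : Matrix ι ι ℝ) {c : ℝ} (hc : c ≠ 0) (v : ι → ℝ) :
    quot g (c • v) = quot g v := by
  simp only [quot, mulVec_smul, dotProduct_smul, smul_dotProduct, smul_eq_mul]
  rw [mul_div_mul_left _ _ hc, mul_div_mul_left _ _ hc]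

lemma sum_form {ι α : Type*} [Fintype ι] (T : Matrix ι ι ℝ) (A : Finset α) (c : α → ℝ)
    (e : α → ι → ℝ) :
    (∑ a ∈ A, c a • e a) ⬝ᵥ (T *ᵥ ∑ a ∈ A, c a • e a) =
      ∑ a ∈ A, ∑ b ∈ A, c a * c b * (e a ⬝ᵥ (T *ᵥ e b)) := by
  simp only [mulVec_sum, sum_dotProduct, dotProduct_sum, mulVec_smul, smul_dotProduct,
    dotProduct_smul, smul_eq_mul, Finset.mul_sum]
  rw [Finset.sum_comm]
  exact Finset.sum_congr rfl fun a _ => Finset.sum_congr rfl fun b _ => by ring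

lemma zeta_norm (M : ℕ) :
    ∑ i ∈ range (M + 1), hz M i ^ 2 * w1 (i, M - i) = (6 : ℝ) ^ M * (M ! : ℝ) := by
  rw [show (6 : ℝ) = 2 + 4 by norm_num, add_pow, Finset.sum_mul]
  refine Finset.sum_congr rfl fun i hi => ?_
  rw [Finset.mem_range] at hi
  have h : (M.choose i : ℝ) * (i ! : ℝ) * ((M - i) ! : ℝ) = (M ! : ℝ) := by
    exact_mod_cast Nat.choose_mul_factorial_mul_factorial (by omega : i ≤ M)
  have h4 : ((-2 : ℝ) ^ (M - i)) ^ 2 = 4 ^ (M - i) := by
    rw [← pow_mul, mul_comm (M - i) 2, pow_mul]; norm_num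
  simp only [hz, w1, mul_pow, h4]
  push_cast
  linear_combination (M.choose i : ℝ) * 4 ^ (M - i) * 2 ^ i * h

/-- The pair coordinates at one pair of indices. -/
def pX (L i a : ℕ) : X2 := (i, a, L - i + 1 - a)

lemma pair_lsum (L : ℕ) (f : X2 → ℝ) :
    lsum (pairPoly L) f =
      ∑ i ∈ range (L + 1), ∑ a ∈ range (L - i + 2), pz L i a * f (pX L i a) := by
  rw [pairPoly, Seq.lsum_flat]
  refine Finset.sum_congr rfl fun i _ => ?_
  rw [Seq.lsum_flat]
  simp only [pX]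
  rw [pz_sum L i fun a b => f (i, a, b)]
  refine Finset.sum_congr rfl fun s hs => ?_
  rw [Finset.mem_range] at hs
  simp only [lsum_cons, lsum_nil, show L - i + 1 - s = L - i - s + 1 by omega]
  ring

lemma pair_norm (L : ℕ) :
    ∑ i ∈ range (L + 1), ∑ a ∈ range (L - i + 2), pz L i a ^ 2 * w2 (pX L i a) =
      2 * (4 : ℝ) ^ L * (L ! : ℝ) := by
  have e : ∀ i ∈ range (L + 1), ∑ a ∈ range (L - i + 2), pz L i a ^ 2 * w2 (pX L i a) =
      2 * (L ! : ℝ) * ((2 : ℝ) ^ i * 2 ^ (L - i) * (L.choose i : ℝ)) := by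
    intro i hi
    rw [Finset.mem_range] at hi
    have h : (L.choose i : ℝ) * (i ! : ℝ) * ((L - i) ! : ℝ) = (L ! : ℝ) := by
      exact_mod_cast Nat.choose_mul_factorial_mul_factorial (by omega : i ≤ L)
    have hsum : ∑ a ∈ range (L - i + 2), pz L i a * ((a : ℝ) - ((L - i + 1 - a : ℕ) : ℝ)) =
        (L.choose i : ℝ) * (-1) ^ (L - i) * (2 * 2 ^ (L - i)) := by
      rw [pz_sum L i fun a b => (a : ℝ) - (b : ℝ),
        show (2 : ℝ) ^ (L - i) = ∑ s ∈ range (L - i + 1), ((L - i).choose s : ℝ) from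
          (by exact_mod_cast (Nat.sum_range_choose (L - i)).symm),
        Finset.mul_sum, Finset.mul_sum]
      refine Finset.sum_congr rfl fun s hs => ?_
      rw [Finset.mem_range] at hs
      rw [Nat.cast_sub (by omega : s ≤ L - i), Nat.cast_sub (by omega : s ≤ L - i + 1)]
      push_cast
      ring
    have key : ∀ a ∈ range (L - i + 2), pz L i a ^ 2 * w2 (pX L i a) =
        (L.choose i : ℝ) * (-1) ^ (L - i) * ((L - i) ! : ℝ) * (2 ^ i * (i ! : ℝ)) *
          (pz L i a * ((a : ℝ) - ((L - i + 1 - a : ℕ) : ℝ))) := by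
      intro a _
      simp only [pz, pX, w2]
      push_cast
      field_simp
    have hs : ((-1 : ℝ) ^ (L - i)) * (-1) ^ (L - i) = 1 := by rw [← mul_pow]; norm_num
    rw [Finset.sum_congr rfl key, ← Finset.mul_sum, hsum]
    linear_combination 2 * (L.choose i : ℝ) * 2 ^ i * 2 ^ (L - i) *
        ((-1 : ℝ) ^ (L - i) * (-1) ^ (L - i)) * h +
      2 * (L.choose i : ℝ) * 2 ^ i * 2 ^ (L - i) * (L ! : ℝ) * hs
  rw [Finset.sum_congr rfl e, ← Finset.mul_sum, ← add_pow]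
  norm_num
  ring

namespace Seq

variable (S : Seq)

lemma quot1 (M : ℕ) :
    Tendsto (fun k => quot (S.g1 k) (hw (2 * S.Q k - 2) (S.Q k) M)) S.l
      (𝓝 (bil S.G1 (zeta M 0) (zeta M 0) / ((6 : ℝ) ^ M * (M ! : ℝ)))) := by
  have hn : Tendsto (fun k => ∑ i ∈ range (M + 1), ∑ j ∈ range (M + 1),
      hC (S.Q k) M i * hC (S.Q k) M j * form1 (S.Q k) (S.g1 k) (i, M - i) (j, M - j)) S.l
      (𝓝 (bil S.G1 (zeta M 0) (zeta M 0))) := by
    rw [bil_eq, zeta_zero]
    simp only [zeta_zero, Finset.mul_sum, ← mul_assoc]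
    exact tendsto_finsetSum _ fun i _ => tendsto_finsetSum _ fun j _ =>
      ((tend_hC S.hQ M i).mul (tend_hC S.hQ M j)).mul (S.t1 _ _)
  have hd : Tendsto (fun k => ∑ i ∈ range (M + 1), hC (S.Q k) M i ^ 2 * w1 (i, M - i)) S.l
      (𝓝 ((6 : ℝ) ^ M * (M ! : ℝ))) := by
    rw [← zeta_norm]
    exact tendsto_finsetSum _ fun i _ => ((tend_hC S.hQ M i).pow 2).mul_const _
  refine (hn.div hd (by positivity)).congr' ?_
  filter_upwards [S.big (M + 2)] with k hk
  rw [← quot_smul (S.g1 k) (hS_ne (by omega : 1 ≤ S.Q k) M), hw_scaled (by omega) (by omega), quot,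
    sum_form, Pi.div_apply]
  congr 1
  rw [sum_dotProduct]
  refine Finset.sum_congr rfl fun i hi => ?_
  rw [Finset.mem_range] at hi
  rw [dotProduct_sum, Finset.sum_eq_single i]
  · rw [smul_dotProduct, dotProduct_smul,
      e1_dot (x := (i, M - i)) (by simp only; omega) (by simp only; omega), if_pos rfl]
    simp [sq, mul_assoc]
  · intro j _ hne
    rw [smul_dotProduct, dotProduct_smul,
      e1_dot (x := (i, M - i)) (by simp only; omega) (by simp only; omega), if_neg]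
    · simp
    · simpa [Prod.ext_iff] using fun h => absurd h.symm hne
  · intro hn'
    exact absurd (Finset.mem_range.2 hi) hn'

lemma quot2 (L : ℕ) :
    Tendsto (fun k => quot (S.g2 k) (hpair (S.Q k) L)) S.l
      (𝓝 (bil S.G2 (pairPoly L) (pairPoly L) / (2 * (4 : ℝ) ^ L * (L ! : ℝ)))) := by
  let I : Finset (Σ _ : ℕ, ℕ) := (range (L + 1)).sigma fun i => range (L - i + 2)
  have hn : Tendsto (fun k => ∑ x ∈ I, ∑ y ∈ I, pC (S.Q k) L x.1 x.2 * pC (S.Q k) L y.1 y.2 *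
      form2 (S.Q k) (S.g2 k) (pX L x.1 x.2) (pX L y.1 y.2)) S.l
      (𝓝 (bil S.G2 (pairPoly L) (pairPoly L))) := by
    have : bil S.G2 (pairPoly L) (pairPoly L) = ∑ x ∈ I, ∑ y ∈ I,
        pz L x.1 x.2 * pz L y.1 y.2 * S.G2 (pX L x.1 x.2) (pX L y.1 y.2) := by
      simp only [bil_eq, pair_lsum, I, Finset.sum_sigma, Finset.mul_sum, mul_assoc]
    rw [this]
    exact tendsto_finsetSum _ fun x _ => tendsto_finsetSum _ fun y _ =>
      ((tend_pC S.hQ L x.1 x.2).mul (tend_pC S.hQ L y.1 y.2)).mul (S.t2 _ _)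
  have hd : Tendsto (fun k => ∑ x ∈ I, pC (S.Q k) L x.1 x.2 ^ 2 * w2 (pX L x.1 x.2)) S.l
      (𝓝 (2 * (4 : ℝ) ^ L * (L ! : ℝ))) := by
    rw [← pair_norm]
    simp only [I, Finset.sum_sigma]
    exact tendsto_finsetSum _ fun i _ => tendsto_finsetSum _ fun a _ =>
      ((tend_pC S.hQ L i a).pow 2).mul_const _
  refine (hn.div hd (by positivity)).congr' ?_
  filter_upwards [S.big (L + 2)] with k hk
  rw [← quot_smul (S.g2 k) (pS_ne (by omega : 1 ≤ S.Q k) L), hpair_scaled hk, Finset.sum_sigma',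
    quot, sum_form, Pi.div_apply]
  congr 1
  rw [sum_dotProduct]
  refine Finset.sum_congr rfl fun x hx => ?_
  simp only [Finset.mem_sigma, Finset.mem_range] at hx
  have hX : ∀ y, e2 (S.Q k) (pX L x.1 x.2) ⬝ᵥ e2 (S.Q k) y =
      if pX L x.1 x.2 = y then w2 (pX L x.1 x.2) else 0 :=
    e2_dot (by simp only [pX]; omega) (by simp only [pX]; omega) (by simp only [pX]; omega)
  rw [dotProduct_sum, Finset.sum_eq_single x]
  · rw [smul_dotProduct, dotProduct_smul]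
    rw [show ((x.1, x.2, L - x.1 + 1 - x.2) : X2) = pX L x.1 x.2 from rfl, hX, if_pos rfl]
    simp [sq, mul_assoc]
  · intro y _ hne
    rw [smul_dotProduct, dotProduct_smul]
    rw [show ((x.1, x.2, L - x.1 + 1 - x.2) : X2) = pX L x.1 x.2 from rfl, hX, if_neg]
    · simp
    · intro h
      simp only [pX, Prod.mk.injEq] at h
      exact hne (by obtain ⟨a, b⟩ := x; obtain ⟨c, d⟩ := y; simp_all)
  · intro hn'
    exact absurd (by simp only [Finset.mem_sigma, Finset.mem_range]; exact hx) hn'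

lemma eig_limit (M : ℕ) :
    Tendsto (fun k => eig (S.Q k) M) S.l (𝓝 ((-1 / 2 : ℝ) ^ M * (3 * (M : ℝ) - 1))) := by
  have h : Tendsto (fun k => (-1) ^ M * ((1 / 2 : ℝ) ^ M *
      (((S.Q k).descFactorial M : ℝ) / (S.Q k : ℝ) ^ M /
        (((2 * S.Q k - 2).descFactorial M : ℝ) / (2 * (S.Q k : ℝ)) ^ M))) *
      ((M : ℝ) - 1 + (M : ℝ) * (2 + (-1 - (M : ℝ)) / (S.Q k : ℝ)))) S.l
      (𝓝 ((-1) ^ M * ((1 / 2 : ℝ) ^ M * (1 / 1)) * ((M : ℝ) - 1 + (M : ℝ) * (2 + 0)))) :=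
    (((((tend_descQ S.hQ M).div (tend_descA S.hQ M) one_ne_zero)).const_mul _).const_mul _).mul
      ((((tend_inv S.hQ (-1 - (M : ℝ))).const_add 2).const_mul (M : ℝ)).const_add _)
  rw [show (-1) ^ M * ((1 / 2 : ℝ) ^ M * (1 / 1)) * ((M : ℝ) - 1 + (M : ℝ) * (2 + 0)) =
    (-1 / 2 : ℝ) ^ M * (3 * (M : ℝ) - 1) by
      rw [div_one, mul_one, ← mul_pow]; norm_num; ring] at h
  refine h.congr' ?_
  filter_upwards [S.big (M + 2)] with k hk
  have hA : (0 : ℝ) < ((2 * S.Q k - 2).choose M : ℝ) := by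
    exact_mod_cast Nat.choose_pos (by omega)
  have hQ0 : (0 : ℝ) < S.Q k := by exact_mod_cast (by omega : 0 < S.Q k)
  rw [eig, cast_desc, cast_desc, one_div, inv_pow]
  field_simp
  ring

/-- The low levels of the energy tend to the planar energy. -/
theorem energy_limit :
    Tendsto (fun k => lowEnergy (S.Q k) (S.g1 k) (S.g2 k)) S.l
      (𝓝 (planarEnergy S.G1 S.G2)) := by
  unfold lowEnergy planarEnergy
  have hden : ∀ k, 1 ≤ S.Q k → (2 * (S.Q k : ℝ) - 1) ≠ 0 := fun k hk => by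
    have : (1 : ℝ) ≤ S.Q k := by exact_mod_cast hk
    linarith
  refine Tendsto.add (tendsto_finsetSum _ fun M _ => ?_) (tendsto_finsetSum _ fun L _ => ?_)
  · refine ((S.eig_limit M).mul ?_).mul (S.quot1 M)
    have h : Tendsto (fun k => (3 + (-1 - 2 * (M : ℝ)) / (S.Q k : ℝ)) / (2 + -1 / (S.Q k : ℝ))) S.l
        (𝓝 ((3 + 0) / (2 + 0))) :=
      ((tend_inv S.hQ _).const_add 3).div ((tend_inv S.hQ _).const_add 2) (by norm_num)
    rw [add_zero, add_zero] at h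
    refine h.congr' ?_
    filter_upwards [S.big 1] with k hk
    have := hden k hk
    have hQ0 : (S.Q k : ℝ) ≠ 0 := by
      have : 0 < S.Q k := hk
      positivity
    rw [show (2 : ℝ) + -1 / (S.Q k : ℝ) = (2 * (S.Q k : ℝ) - 1) / (S.Q k : ℝ) by field_simp; ring,
      show (3 : ℝ) + (-1 - 2 * (M : ℝ)) / (S.Q k : ℝ) =
        (3 * (S.Q k : ℝ) - 1 - 2 * M) / (S.Q k : ℝ) by field_simp; ring,
      div_div_div_cancel_right₀ hQ0]
  · rw [show bil S.G2 (pairPoly L) (pairPoly L) / (2 * (4 : ℝ) ^ L * (L ! : ℝ)) =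
      1 * (bil S.G2 (pairPoly L) (pairPoly L) / (2 * (4 : ℝ) ^ L * (L ! : ℝ))) from (one_mul _).symm]
    refine Tendsto.mul ?_ (S.quot2 L)
    have h : Tendsto (fun k => (4 + (-3 - 2 * (L : ℝ)) / (S.Q k : ℝ)) /
        (2 * (2 + -1 / (S.Q k : ℝ)))) S.l (𝓝 ((4 + 0) / (2 * (2 + 0)))) :=
      ((tend_inv S.hQ _).const_add 4).div (((tend_inv S.hQ _).const_add 2).const_mul 2)
        (by norm_num)
    norm_num only at h
    refine h.congr' ?_
    filter_upwards [S.big 1] with k hk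
    have := hden k hk
    have hQ0 : (S.Q k : ℝ) ≠ 0 := by
      have : 0 < S.Q k := hk
      positivity
    rw [show (2 : ℝ) + -1 / (S.Q k : ℝ) = (2 * (S.Q k : ℝ) - 1) / (S.Q k : ℝ) by field_simp; ring,
      show (4 : ℝ) + (-3 - 2 * (L : ℝ)) / (S.Q k : ℝ) =
        (4 * (S.Q k : ℝ) - 3 - 2 * L) / (S.Q k : ℝ) by field_simp; ring,
      ← mul_div_assoc, div_div_div_cancel_right₀ hQ0]

end Seq

end

end Vale.Agent.P359.Gap.Limit
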