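import Vale.Agent.P359.Gap.Targets
import Vale.Agent.P359.Gap.Limit.Energy

/-!
# P359 gap: a planar bound gives the bound on all large spheres
-/

namespace Vale.Agent.P359.Gap

open Matrix Finset Filter Topology

noncomputable section

namespace Limit

lemma exists_lim {f : ℕ → ℝ} {B : ℝ} (h : ∀ k, |f k| ≤ B) :
    ∃ x, Tendsto f (hyperfilter ℕ : Filter ℕ) (𝓝 x) := by
  obtain ⟨x, -, hx⟩ := isCompact_Icc.ultrafilter_le_nhds ((hyperfilter ℕ).map f)
    (le_principal_iff.2 (Ultrafilter.mem_coe.2 (by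
      rw [Ultrafilter.mem_map]
      exact Filter.univ_mem' fun k => abs_le.1 (h k))))
  exact ⟨x, hx⟩

lemma abs_one_le {A : ℕ} {s : ℕ → ℝ} (hs : ∀ i, 0 < s i) (i : ℕ) (u : Fin (A + 1)) :
    |one A s i u| ≤ s i := by
  simp only [one]
  split_ifs
  · rw [abs_of_pos (hs i)]
  · simpa using (hs i).le

lemma form1_bound {Q : ℕ} {g1 g2} (h : IsMarginal Q g1 g2) (x y : X1) :
    |form1 Q g1 x y| ≤ s1 x * s1 y := by
  have hs : 0 ≤ s1 x * s1 y :=
    mul_nonneg (mul_pos (sC_pos _) (sU_pos _)).le (mul_pos (sC_pos _) (sU_pos _)).le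
  by_cases hx : 2 * Q - 2 < x.1 ∨ Q < x.2
  · rw [form1, e1_eq_zero hx, zero_dotProduct, abs_zero]; exact hs
  by_cases hy : 2 * Q - 2 < y.1 ∨ Q < y.2
  · rw [form1, e1_eq_zero hy, mulVec_zero, dotProduct_zero, abs_zero]; exact hs
  simp only [not_or, not_lt] at hx hy
  obtain ⟨i, a⟩ := x
  obtain ⟨i', a'⟩ := y
  rw [form1_single _ hx.1 hx.2 hy.1 hy.2, abs_mul, abs_mul]
  have p1 : 0 < s1 (i, a) := mul_pos (sC_pos _) (sU_pos _)
  have p2 : 0 < s1 (i', a') := mul_pos (sC_pos _) (sU_pos _)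
  rw [abs_of_pos p1, abs_of_pos p2]
  gcongr
  exact mul_le_of_le_one_left p2.le (abs_entry_le_one h.symm1 h.psd1 h.diag1 _ _)

lemma form2_bound {Q : ℕ} {g1 g2} (h : IsMarginal Q g1 g2) (x y : X2) :
    |form2 Q g2 x y| ≤ s2 x * s2 y := by
  have hs : 0 ≤ s2 x * s2 y :=
    mul_nonneg (mul_pos (sC_pos _) (mul_pos (sU_pos _) (sU_pos _))).le
      (mul_pos (sC_pos _) (mul_pos (sU_pos _) (sU_pos _))).le
  by_cases hx : 2 * Q - 2 < x.1 ∨ Q < x.2.1 ∨ Q < x.2.2
  · rw [form2, e2_eq_zero hx, zero_dotProduct, abs_zero]; exact hs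
  by_cases hy : 2 * Q - 2 < y.1 ∨ Q < y.2.1 ∨ Q < y.2.2
  · rw [form2, e2_eq_zero hy, mulVec_zero, dotProduct_zero, abs_zero]; exact hs
  simp only [not_or, not_lt] at hx hy
  obtain ⟨i, a, b⟩ := x
  obtain ⟨i', a', b'⟩ := y
  rw [form2_single _ hx.1 hx.2.1 hx.2.2 hy.1 hy.2.1 hy.2.2, abs_mul, abs_mul]
  have p1 : 0 < s2 (i, a, b) := mul_pos (sC_pos _) (mul_pos (sU_pos _) (sU_pos _))
  have p2 : 0 < s2 (i', a', b') := mul_pos (sC_pos _) (mul_pos (sU_pos _) (sU_pos _))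
  rw [abs_of_pos p1, abs_of_pos p2]
  gcongr
  exact mul_le_of_le_one_left p2.le (abs_entry_le_one h.symm2 h.psd2 h.diag2 _ _)

end Limit

open Limit in
/-- Module Limit: a planar bound gives the bound on all large spheres. -/
theorem limit_target : LimitTarget := by
  intro c hc ε hε
  by_contra hne
  simp only [not_exists, not_forall, not_le] at hne
  choose Q hQ g1 g2 hm hlt using hne
  have hl : (hyperfilter ℕ : Filter ℕ) ≤ atTop := by
    rw [← Nat.cofinite_eq_atTop]; exact hyperfilter_le_cofinite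
  have hQ' : Tendsto Q (hyperfilter ℕ : Filter ℕ) atTop :=
    (tendsto_atTop_mono hQ tendsto_id).mono_left hl
  choose G1 hG1 using fun x : X1 => fun y : X1 =>
    exists_lim fun k => form1_bound (hm k) x y
  choose G2 hG2 using fun x : X2 => fun y : X2 =>
    exists_lim fun k => form2_bound (hm k) x y
  let S : Seq :=
    { Q := Q, g1 := g1, g2 := g2, l := (hyperfilter ℕ : Filter ℕ), G1 := G1, G2 := G2,
      hl := inferInstance, hm := hm, hQ := hQ', t1 := hG1, t2 := hG2 }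
  have h1 := hc _ _ S.isPlanar
  have : (hyperfilter ℕ : Filter ℕ).NeBot := inferInstance
  have h2 : planarEnergy G1 G2 ≤ -c - ε :=
    le_of_tendsto' S.energy_limit fun k => (hlt k).le
  have h1' : -c ≤ planarEnergy G1 G2 := h1
  linarith

end

end Vale.Agent.P359.Gap
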