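import Vale.Agent.P359.Gap.Limit.Shift

/-!
# P359 gap: highest weight vectors in planar coordinates
-/

namespace Vale.Agent.P359.Gap.Limit

open Matrix Finset Filter Topology
open scoped Nat

noncomputable section

lemma cast_desc (n k : ℕ) : (n.descFactorial k : ℝ) = (k ! : ℝ) * (n.choose k : ℝ) := by
  exact_mod_cast Nat.descFactorial_eq_factorial_mul_choose n k

/-- Scale of the highest weight vector. -/
def hS (Q M : ℕ) : ℝ := (-2) ^ M * Real.sqrt ((Q : ℝ) ^ M)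

/-- Limit of the coefficients of the highest weight vector. -/
def hz (M i : ℕ) : ℝ := (M.choose i : ℝ) * (-2) ^ (M - i)

/-- Coefficients of the scaled highest weight vector. -/
def hC (Q M i : ℕ) : ℝ :=
  hz M i * Real.sqrt ((2 * (Q : ℝ)) ^ i / ((2 * Q - 2).descFactorial i : ℝ) *
    ((Q : ℝ) ^ (M - i) / (Q.descFactorial (M - i) : ℝ)))

lemma hw_scaled {Q M : ℕ} (hQ : 2 ≤ Q) (hM : M ≤ Q) :
    hS Q M • hw (2 * Q - 2) Q M = ∑ i ∈ range (M + 1), hC Q M i • e1 Q (i, M - i) := by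
  funext u
  simp only [Pi.smul_apply, Finset.sum_apply, smul_eq_mul, hw, e1, ten, one]
  by_cases h : (u.1 : ℕ) + (u.2 : ℕ) = M
  · rw [if_pos h, Finset.sum_eq_single (u.1 : ℕ)]
    · rw [if_pos rfl, if_pos (by omega)]
      obtain ⟨i, hi⟩ : ∃ i, i = (u.1 : ℕ) := ⟨_, rfl⟩
      obtain ⟨j, hj⟩ : ∃ j, j = (u.2 : ℕ) := ⟨_, rfl⟩
      rw [← hi, ← hj, show M - i = j by omega]
      rw [← hi, ← hj] at h
      subst h
      have hiA : i ≤ 2 * Q - 2 := by omega
      have hjQ : j ≤ Q := by omega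
      have hA : (0 : ℝ) < ((2 * Q - 2).choose i : ℝ) := by exact_mod_cast Nat.choose_pos hiA
      have hB : (0 : ℝ) < (Q.choose j : ℝ) := by exact_mod_cast Nat.choose_pos hjQ
      have hQ0 : (0 : ℝ) < Q := by exact_mod_cast (by omega : 0 < Q)
      have key : Real.sqrt ((Q : ℝ) ^ (i + j)) * 2 ^ i /
          Real.sqrt (((2 * Q - 2).choose i : ℝ) * (Q.choose j : ℝ)) =
          Real.sqrt ((2 * (Q : ℝ)) ^ i / ((2 * Q - 2).descFactorial i : ℝ) *
            ((Q : ℝ) ^ j / (Q.descFactorial j : ℝ))) * (sC i * sU j) := by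
        rw [cast_desc, cast_desc]
        refine (sq_eq_sq₀ (by positivity)
          (mul_nonneg (Real.sqrt_nonneg _) (mul_pos (sC_pos i) (sU_pos j)).le)).1 ?_
        simp only [mul_pow, div_pow, sC_sq, sU_sq, Nat.cast_mul, Nat.cast_pow, Nat.cast_ofNat]
        rw [Real.sq_sqrt (by positivity), Real.sq_sqrt (by positivity),
          Real.sq_sqrt (by positivity)]
        field_simp
        ring
      simp only [hC, hS, hz, show i + j - i = j by omega]
      rw [show (-2 : ℝ) ^ (i + j) = (-1) ^ i * (2 ^ i * (-2) ^ j) by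
        rw [pow_add, show (-2 : ℝ) = -1 * 2 by norm_num, mul_pow]; ring]
      have hs : ((-1 : ℝ) ^ i) * (-1) ^ i = 1 := by rw [← mul_pow]; norm_num
      linear_combination ((i + j).choose i : ℝ) * (-2) ^ j * key +
        (Real.sqrt ((Q : ℝ) ^ (i + j)) * 2 ^ i /
          Real.sqrt (((2 * Q - 2).choose i : ℝ) * (Q.choose j : ℝ))) *
          ((i + j).choose i : ℝ) * (-2) ^ j * hs
    · intro i _ hne
      simp [Ne.symm hne]
    · intro hn
      exact absurd (Finset.mem_range.2 (by omega)) hn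
  · rw [if_neg h, mul_zero, Finset.sum_eq_zero]
    intro i hi
    rw [Finset.mem_range] at hi
    split_ifs with h1 h2 <;> simp
    omega

variable {β : Type*} {l : Filter β} {Q : β → ℕ}

lemma tend_descQ (hQ : Tendsto Q l atTop) (i : ℕ) :
    Tendsto (fun k => ((Q k).descFactorial i : ℝ) / (Q k : ℝ) ^ i) l (𝓝 1) := by
  simpa using tend_desc hQ one_pos 0 (A := Q) (Eventually.of_forall fun k => by simp) i

lemma tend_descA (hQ : Tendsto Q l atTop) (i : ℕ) :
    Tendsto (fun k => ((2 * Q k - 2).descFactorial i : ℝ) / (2 * (Q k : ℝ)) ^ i) l (𝓝 1) := by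
  refine tend_desc hQ two_pos (-2) (A := fun k => 2 * Q k - 2) ?_ i
  filter_upwards [hQ.eventually_ge_atTop 1] with k hk
  exact cast_A hk

lemma tend_hC (hQ : Tendsto Q l atTop) (M i : ℕ) :
    Tendsto (fun k => hC (Q k) M i) l (𝓝 (hz M i)) := by
  have h := ((((tend_descA hQ i).inv₀ one_ne_zero).mul
    ((tend_descQ hQ (M - i)).inv₀ one_ne_zero)).sqrt).const_mul (hz M i)
  simpa [hC, inv_div] using h

lemma hS_ne {Q : ℕ} (hQ : 1 ≤ Q) (M : ℕ) : hS Q M ≠ 0 :=
  mul_ne_zero (pow_ne_zero _ (by norm_num)) (Real.sqrt_ne_zero'.2 (by positivity))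

/-- Scale of the pair vector. -/
def pS (Q L : ℕ) : ℝ := (-1) ^ (L + 1) * Real.sqrt (2 * 4 ^ L * (Q : ℝ) ^ L)

/-- Limit of the coefficients of the pair vector. -/
def pz (L i a : ℕ) : ℝ :=
  (L.choose i : ℝ) * (-1) ^ (L - i) * ((L - i) ! : ℝ) * ((a : ℝ) - ((L - i + 1 - a : ℕ) : ℝ)) /
    ((a ! : ℝ) * ((L - i + 1 - a) ! : ℝ))

/-- Coefficients of the scaled pair vector. -/
def pC (Q L i a : ℕ) : ℝ :=
  pz L i a * ((2 * (Q : ℝ)) ^ (L - i) / ((2 * Q - 2).descFactorial (L - i) : ℝ)) *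
    Real.sqrt ((Q.descFactorial a : ℝ) / (Q : ℝ) ^ a *
      ((Q.descFactorial (L - i + 1 - a) : ℝ) / (Q : ℝ) ^ (L - i + 1 - a)) *
      ((2 * (Q : ℝ)) ^ i / ((2 * Q - 2).descFactorial i : ℝ)))

lemma tend_pC (hQ : Tendsto Q l atTop) (L i a : ℕ) :
    Tendsto (fun k => pC (Q k) L i a) l (𝓝 (pz L i a)) := by
  have h := (((tend_descA hQ (L - i)).inv₀ one_ne_zero).const_mul (pz L i a)).mul
    ((((tend_descQ hQ a).mul (tend_descQ hQ (L - i + 1 - a))).mul
      ((tend_descA hQ i).inv₀ one_ne_zero)).sqrt)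
  simpa [pC, inv_div] using h

lemma pS_ne {Q : ℕ} (hQ : 1 ≤ Q) (L : ℕ) : pS Q L ≠ 0 :=
  mul_ne_zero (pow_ne_zero _ (by norm_num)) (Real.sqrt_ne_zero'.2 (by positivity))

lemma pair_key {Q i j a b : ℕ} (hQ : 1 ≤ Q) (hi : i ≤ 2 * Q - 2) (hj : j ≤ 2 * Q - 2)
    (ha : a ≤ Q) (hb : b ≤ Q) (hab : a + b = j + 1) :
    Real.sqrt (2 * 4 ^ (i + j) * (Q : ℝ) ^ (i + j)) *
        Real.sqrt ((Q.choose a : ℝ) * (Q.choose b : ℝ) /
          (2 * (Q : ℝ) * ((2 * Q - 2).choose j : ℝ))) /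
        Real.sqrt (((2 * Q - 2).choose i : ℝ) * ((2 * Q - 2).choose j : ℝ)) =
      (j ! : ℝ) / ((a ! : ℝ) * (b ! : ℝ)) *
        ((2 * (Q : ℝ)) ^ j / ((2 * Q - 2).descFactorial j : ℝ)) *
        Real.sqrt ((Q.descFactorial a : ℝ) / (Q : ℝ) ^ a *
          ((Q.descFactorial b : ℝ) / (Q : ℝ) ^ b) *
          ((2 * (Q : ℝ)) ^ i / ((2 * Q - 2).descFactorial i : ℝ))) *
        (sC i * (sU a * sU b)) := by
  have hAi : (0 : ℝ) < ((2 * Q - 2).choose i : ℝ) := by exact_mod_cast Nat.choose_pos hi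
  have hAj : (0 : ℝ) < ((2 * Q - 2).choose j : ℝ) := by exact_mod_cast Nat.choose_pos hj
  have hA : (0 : ℝ) < (Q.choose a : ℝ) := by exact_mod_cast Nat.choose_pos ha
  have hB : (0 : ℝ) < (Q.choose b : ℝ) := by exact_mod_cast Nat.choose_pos hb
  have hQ0 : (0 : ℝ) < Q := by exact_mod_cast (by omega : 0 < Q)
  have hp : (Q : ℝ) ^ a * (Q : ℝ) ^ b = (Q : ℝ) * (Q : ℝ) ^ j := by
    rw [← pow_add, hab, pow_succ']
  rw [div_mul_div_comm (Q.descFactorial a : ℝ), hp]
  simp only [cast_desc]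
  refine (sq_eq_sq₀ (by positivity) (mul_nonneg (by positivity)
    (mul_pos (sC_pos i) (mul_pos (sU_pos a) (sU_pos b))).le)).1 ?_
  simp only [mul_pow, div_pow, sC_sq, sU_sq, Nat.cast_mul, Nat.cast_pow, Nat.cast_ofNat]
  rw [Real.sq_sqrt (by positivity), Real.sq_sqrt (by positivity),
    Real.sq_sqrt (by positivity), Real.sq_sqrt (by positivity)]
  field_simp
  rw [show (4 : ℝ) = 2 * 2 by norm_num]
  simp only [mul_pow]
  ring

lemma hpair_value {Q L : ℕ} (hL : L + 2 ≤ Q) (C : CI Q) (a b : UI Q) :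
    hpair Q L (C, a, b) =
      if (C : ℕ) ≤ L ∧ (a : ℕ) + b = L - C + 1 then
        (-1) ^ (C : ℕ) * (L.choose (C : ℕ) : ℝ) /
            Real.sqrt (((2 * Q - 2).choose (C : ℕ) : ℝ) * ((2 * Q - 2).choose (L - C) : ℝ)) *
          (((b : ℕ) : ℝ) - ((a : ℕ) : ℝ)) *
          Real.sqrt ((Q.choose (a : ℕ) : ℝ) * (Q.choose (b : ℕ) : ℝ) /
            (2 * (Q : ℝ) * ((2 * Q - 2).choose (L - C) : ℝ)))
      else 0 := by
  simp only [hpair, hw, pc]
  split_ifs with h
  · obtain ⟨h1, h2⟩ := h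
    rw [Finset.sum_eq_single (⟨L - C, by omega⟩ : CI Q)]
    · rw [if_pos (by simp only; omega), if_pos (by simp only; omega)]
      ring
    · intro D _ hne
      rw [if_neg, zero_mul]
      intro hD
      exact hne (Fin.ext (by simp only; omega))
    · intro hn; exact absurd (Finset.mem_univ _) hn
  · refine Finset.sum_eq_zero fun D _ => ?_
    by_cases h1 : (C : ℕ) + (D : ℕ) = L
    · rw [if_neg (show ¬ (a : ℕ) + b = (D : ℕ) + 1 from fun h2 => h ⟨by omega, by omega⟩), mul_zero]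
    · rw [if_neg h1, zero_mul]

lemma hpair_scaled {Q L : ℕ} (hL : L + 2 ≤ Q) :
    pS Q L • hpair Q L = ∑ i ∈ range (L + 1), ∑ a ∈ range (L - i + 2),
      pC Q L i a • e2 Q (i, a, L - i + 1 - a) := by
  funext u
  obtain ⟨C, a, b⟩ := u
  rw [Pi.smul_apply, hpair_value hL]
  simp only [Finset.sum_apply, Pi.smul_apply, smul_eq_mul, e2, ten, one]
  split_ifs with h
  · obtain ⟨h1, h2⟩ := h
    rw [Finset.sum_eq_single (C : ℕ), Finset.sum_eq_single (a : ℕ)]
    · have hb : L - (C : ℕ) + 1 - (a : ℕ) = (b : ℕ) := by omega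
      rw [if_pos rfl, if_pos rfl, hb, if_pos rfl]
      have hk := pair_key (Q := Q) (i := C) (j := L - C) (by omega) (by omega) (by omega)
        (by omega : (a : ℕ) ≤ Q) (by omega : (b : ℕ) ≤ Q) h2
      rw [show (C : ℕ) + (L - C) = L by omega] at hk
      simp only [pC, pz, pS, hb]
      have hs : ((-1 : ℝ) ^ (L + 1)) * (-1) ^ (C : ℕ) = -(-1) ^ (L - (C : ℕ)) := by
        rw [← pow_add, show L + 1 + (C : ℕ) = L - C + 1 + 2 * C by omega, pow_add, pow_mul,
          neg_one_sq, one_pow, mul_one, pow_succ]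
        ring
      linear_combination (L.choose (C : ℕ) : ℝ) * (-1) ^ (L - (C : ℕ)) *
          (((a : ℕ) : ℝ) - ((b : ℕ) : ℝ)) * hk +
        (Real.sqrt (2 * 4 ^ L * (Q : ℝ) ^ L) * Real.sqrt ((Q.choose (a : ℕ) : ℝ) *
            (Q.choose (b : ℕ) : ℝ) / (2 * (Q : ℝ) * ((2 * Q - 2).choose (L - C) : ℝ))) /
          Real.sqrt (((2 * Q - 2).choose (C : ℕ) : ℝ) * ((2 * Q - 2).choose (L - C) : ℝ))) *
          (L.choose (C : ℕ) : ℝ) * (((b : ℕ) : ℝ) - ((a : ℕ) : ℝ)) * hs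
    · intro x _ hne
      simp [Ne.symm hne]
    · intro hn; exact absurd (Finset.mem_range.2 (by omega)) hn
    · intro x _ hne
      simp [Ne.symm hne]
    · intro hn; exact absurd (Finset.mem_range.2 (by omega)) hn
  · rw [mul_zero, Finset.sum_eq_zero]
    intro i hi
    refine Finset.sum_eq_zero fun x hx => ?_
    rw [Finset.mem_range] at hi hx
    split_ifs with h1 h2 h3 <;> simp
    exact absurd ⟨by omega, by omega⟩ h

lemma pz_sum (L i : ℕ) (f : ℕ → ℕ → ℝ) :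
    ∑ a ∈ range (L - i + 2), pz L i a * f a (L - i + 1 - a) =
      ∑ s ∈ range (L - i + 1), (L.choose i : ℝ) * (-1) ^ (L - i) * ((L - i).choose s : ℝ) *
        (f (s + 1) (L - i - s) - f s (L - i + 1 - s)) := by
  simp only [pz]
  generalize L - i = j
  have split : ∀ a : ℕ, (L.choose i : ℝ) * (-1) ^ j * (j ! : ℝ) * ((a : ℝ) - ((j + 1 - a : ℕ) : ℝ)) /
      ((a ! : ℝ) * ((j + 1 - a) ! : ℝ)) * f a (j + 1 - a) =
      (L.choose i : ℝ) * (-1) ^ j *
          ((j ! : ℝ) * (a : ℝ) / ((a ! : ℝ) * ((j + 1 - a) ! : ℝ)) * f a (j + 1 - a)) -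
        (L.choose i : ℝ) * (-1) ^ j * ((j ! : ℝ) * ((j + 1 - a : ℕ) : ℝ) /
          ((a ! : ℝ) * ((j + 1 - a) ! : ℝ)) * f a (j + 1 - a)) := fun a => by ring
  rw [Finset.sum_congr rfl fun a _ => split a]
  simp only [mul_sub, Finset.sum_sub_distrib]
  congr 1
  · rw [Finset.sum_range_succ']
    simp only [CharP.cast_eq_zero, mul_zero, zero_div, zero_mul, add_zero]
    refine Finset.sum_congr rfl fun s hs => ?_
    rw [Finset.mem_range] at hs
    rw [show j + 1 - (s + 1) = j - s by omega, Nat.cast_choose ℝ (by omega : s ≤ j),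
      Nat.factorial_succ]
    push_cast
    field_simp
  · rw [Finset.sum_range_succ]
    simp only [Nat.sub_self, CharP.cast_eq_zero, mul_zero, zero_div, zero_mul, add_zero]
    refine Finset.sum_congr rfl fun s hs => ?_
    rw [Finset.mem_range] at hs
    rw [show j + 1 - s = j - s + 1 by omega, Nat.cast_choose ℝ (by omega : s ≤ j),
      Nat.factorial_succ]
    push_cast
    field_simp

end

end Vale.Agent.P359.Gap.Limit
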