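import Mathlib
import Vale.Agent.P359.Gap.Sphere
import Vale.Agent.P359.Gap.Planar

/-!
# P359 gap: monomial coordinates on the sphere

Vectors of the spheres indexed by planar levels, their scalar products, and the action of lowering.
-/

namespace Vale.Agent.P359.Gap.Limit

open Matrix Finset Nat

noncomputable section

/-- A weighted sum over a list. -/
def lsum {α : Type*} (p : List (α × ℝ)) (f : α → ℝ) : ℝ := (p.map fun x => x.2 * f x.1).sum

@[simp] lemma lsum_nil {α : Type*} (f : α → ℝ) : lsum [] f = 0 := rfl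

@[simp] lemma lsum_cons {α : Type*} (x : α × ℝ) (p : List (α × ℝ)) (f : α → ℝ) :
    lsum (x :: p) f = x.2 * f x.1 + lsum p f := by simp [lsum]

lemma lsum_congr {α : Type*} {p : List (α × ℝ)} {f g : α → ℝ} (h : ∀ x ∈ p, f x.1 = g x.1) :
    lsum p f = lsum p g := by
  induction p with
  | nil => rfl
  | cons x p ih =>
    rw [lsum_cons, lsum_cons, h x (by simp), ih fun y hy => h y (List.mem_cons_of_mem _ hy)]

lemma lsum_add {α : Type*} (p : List (α × ℝ)) (f g : α → ℝ) :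
    lsum p (fun x => f x + g x) = lsum p f + lsum p g := by
  induction p with
  | nil => simp
  | cons x p ih => simp [ih]; ring

lemma lsum_mul {α : Type*} (p : List (α × ℝ)) (c : ℝ) (f : α → ℝ) :
    lsum p (fun x => c * f x) = c * lsum p f := by
  induction p with
  | nil => simp
  | cons x p ih => simp [ih]; ring

lemma bil_eq {ι : Type} (G : ι → ι → ℝ) (p q : List (ι × ℝ)) :
    bil G p q = lsum p fun x => lsum q (G x) := by
  induction p with
  | nil => simp [bil]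
  | cons x p ih =>
    rw [lsum_cons, ← ih]
    simp only [bil, List.map_cons, List.sum_cons, lsum, mul_assoc, List.sum_map_mul_left]

lemma tendsto_lsum {α β : Type*} {l : Filter β} (p : List (α × ℝ)) {f : β → α → ℝ} {g : α → ℝ}
    (h : ∀ x ∈ p, Filter.Tendsto (fun k => f k x.1) l (nhds (g x.1))) :
    Filter.Tendsto (fun k => lsum p (f k)) l (nhds (lsum p g)) := by
  induction p with
  | nil => simpa using tendsto_const_nhds
  | cons x p ih =>
    simp only [lsum_cons]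
    exact ((h x (by simp)).const_mul _).add (ih fun y hy => h y (List.mem_cons_of_mem _ hy))

section Vec

variable {ι κ α β : Type*} [Fintype ι] [Fintype κ]

/-- The vector of a weighted list. -/
def vec (e : α → ι → ℝ) (p : List (α × ℝ)) : ι → ℝ := fun u => lsum p fun x => e x u

omit [Fintype ι] in
lemma vec_nil (e : α → ι → ℝ) : vec e [] = 0 := rfl

omit [Fintype ι] in
lemma vec_cons (e : α → ι → ℝ) (x : α × ℝ) (p : List (α × ℝ)) :
    vec e (x :: p) = x.2 • e x.1 + vec e p := by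
  funext u; simp [vec]

lemma vec_dot (e : α → ι → ℝ) (p : List (α × ℝ)) (v : ι → ℝ) :
    vec e p ⬝ᵥ v = lsum p fun x => e x ⬝ᵥ v := by
  induction p with
  | nil => simp [vec_nil]
  | cons x p ih => rw [vec_cons, add_dotProduct, smul_dotProduct, ih, lsum_cons, smul_eq_mul]

lemma dot_vec (e : α → ι → ℝ) (p : List (α × ℝ)) (v : ι → ℝ) :
    v ⬝ᵥ vec e p = lsum p fun x => v ⬝ᵥ e x := by
  simp only [dotProduct_comm v]
  exact vec_dot e p v

lemma mul_vec (T : Matrix κ ι ℝ) (e : α → ι → ℝ) (p : List (α × ℝ)) :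
    T *ᵥ vec e p = vec (fun x => T *ᵥ e x) p := by
  induction p with
  | nil => simp [vec_nil]
  | cons x p ih => rw [vec_cons, mulVec_add, mulVec_smul, ih, vec_cons]

lemma vec_form (e : α → ι → ℝ) (f : β → κ → ℝ) (T : Matrix ι κ ℝ) (p : List (α × ℝ))
    (q : List (β × ℝ)) :
    vec e p ⬝ᵥ (T *ᵥ vec f q) = lsum p fun x => lsum q fun y => e x ⬝ᵥ (T *ᵥ f y) := by
  rw [mul_vec, vec_dot]
  exact lsum_congr fun x _ => dot_vec _ _ _

/-- A tensor product of two vectors. -/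
def ten (f : ι → ℝ) (h : κ → ℝ) : ι × κ → ℝ := fun u => f u.1 * h u.2

lemma ten_dot (f f' : ι → ℝ) (h h' : κ → ℝ) :
    ten f h ⬝ᵥ ten f' h' = (f ⬝ᵥ f') * (h ⬝ᵥ h') := by
  simp only [dotProduct, ten, Fintype.sum_prod_type, Finset.sum_mul_sum]
  exact Finset.sum_congr rfl fun a _ => Finset.sum_congr rfl fun b _ => by ring

omit [Fintype ι] [Fintype κ] in
lemma ten_smul_left (c : ℝ) (f : ι → ℝ) (h : κ → ℝ) : ten (c • f) h = c • ten f h := by
  funext u; simp [ten, mul_assoc]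

omit [Fintype ι] [Fintype κ] in
lemma ten_smul_right (c : ℝ) (f : ι → ℝ) (h : κ → ℝ) : ten f (c • h) = c • ten f h := by
  funext u; simp [ten]; ring

omit [Fintype ι] [Fintype κ] in
lemma ten_add_right (f : ι → ℝ) (h h' : κ → ℝ) : ten f (h + h') = ten f h + ten f h' := by
  funext u; simp [ten, mul_add]

variable [DecidableEq ι] [DecidableEq κ]

/-- The sum of two operators on a tensor product. -/
def ksum (D : Matrix ι ι ℝ) (E : Matrix κ κ ℝ) : Matrix (ι × κ) (ι × κ) ℝ :=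
  fun x y => (if x.2 = y.2 then D x.1 y.1 else 0) + (if x.1 = y.1 then E x.2 y.2 else 0)

lemma ksum_ten (D : Matrix ι ι ℝ) (E : Matrix κ κ ℝ) (f : ι → ℝ) (h : κ → ℝ) :
    ksum D E *ᵥ ten f h = ten (D *ᵥ f) h + ten f (E *ᵥ h) := by
  funext u
  simp only [mulVec, dotProduct, ksum, ten, Pi.add_apply, Fintype.sum_prod_type, add_mul, ite_mul,
    zero_mul, Finset.sum_add_distrib, Finset.sum_mul, Finset.mul_sum]
  congr 1
  · refine Finset.sum_congr rfl fun a _ => ?_
    rw [Finset.sum_ite_eq, if_pos (mem_univ _), mul_assoc]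
  · rw [Finset.sum_comm]
    refine Finset.sum_congr rfl fun b _ => ?_
    rw [Finset.sum_ite_eq, if_pos (mem_univ _)]
    ring

omit [Fintype ι] [Fintype κ] in
lemma ksum_transpose (D : Matrix ι ι ℝ) (E : Matrix κ κ ℝ) :
    (ksum D E)ᵀ = ksum Dᵀ Eᵀ := by
  ext x y
  simp [ksum, Matrix.transpose_apply, eq_comm]

end Vec

/-- One level, weighted by `s`. -/
def one (A : ℕ) (s : ℕ → ℝ) (i : ℕ) : Fin (A + 1) → ℝ := fun u => if (u : ℕ) = i then s i else 0

lemma one_eq_single {A : ℕ} {s : ℕ → ℝ} {i : ℕ} (h : i ≤ A) :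
    one A s i = Pi.single (⟨i, by omega⟩ : Fin (A + 1)) (s i) := by
  funext u
  simp [one, Pi.single_apply, Fin.ext_iff]

lemma one_eq_zero {A : ℕ} {s : ℕ → ℝ} {i : ℕ} (h : A < i) : one A s i = 0 := by
  funext u
  simp [one]
  omega

lemma one_dot_one {A : ℕ} (s : ℕ → ℝ) {i : ℕ} (h : i ≤ A) (j : ℕ) :
    one A s i ⬝ᵥ one A s j = if i = j then s i ^ 2 else 0 := by
  rw [one_eq_single h, single_dotProduct]
  simp only [one]
  split_ifs with hij
  · subst hij; ring
  · simp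

/-- The scale of the centre levels. -/
def sC (i : ℕ) : ℝ := Real.sqrt ((2 ^ i * i ! : ℕ) : ℝ)

/-- The scale of the particle levels. -/
def sU (a : ℕ) : ℝ := Real.sqrt ((a ! : ℕ) : ℝ)

lemma sC_pos (i : ℕ) : 0 < sC i := Real.sqrt_pos.2 (by positivity)

lemma sU_pos (a : ℕ) : 0 < sU a := Real.sqrt_pos.2 (by positivity)

lemma sC_sq (i : ℕ) : sC i ^ 2 = ((2 ^ i * i ! : ℕ) : ℝ) := Real.sq_sqrt (by positivity)

lemma sU_sq (a : ℕ) : sU a ^ 2 = ((a ! : ℕ) : ℝ) := Real.sq_sqrt (by positivity)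

lemma sC_succ (i : ℕ) : sC (i + 1) = Real.sqrt (2 * ((i : ℝ) + 1)) * sC i := by
  rw [sC, sC, ← Real.sqrt_mul (by positivity)]
  congr 1
  rw [pow_succ, factorial_succ]
  push_cast
  ring

lemma sU_succ (a : ℕ) : sU (a + 1) = Real.sqrt (1 * ((a : ℝ) + 1)) * sU a := by
  rw [sU, sU, ← Real.sqrt_mul (by positivity), factorial_succ]
  congr 1
  push_cast
  ring

section Lower

variable {A : ℕ} {s : ℕ → ℝ} {r : ℝ}

lemma low_mul (hr : 0 < r) (hs : ∀ i, s (i + 1) = Real.sqrt (r * ((i : ℝ) + 1)) * s i) (i : ℕ) :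
    low A i * s i = Real.sqrt (((A : ℝ) - i) / r) * s (i + 1) := by
  rw [hs, ← mul_assoc, low]
  congr 1
  rw [← Real.sqrt_mul' _ (by positivity)]
  congr 1
  field_simp

lemma down_one (hr : 0 < r) (hs : ∀ i, s (i + 1) = Real.sqrt (r * ((i : ℝ) + 1)) * s i) (i : ℕ) :
    down A *ᵥ one A s i = Real.sqrt (((A : ℝ) - i) / r) • one A s (i + 1) := by
  funext u
  rcases le_or_gt i A with h | h
  · rw [one_eq_single h, mulVec_single]
    simp only [Pi.smul_apply, MulOpposite.smul_eq_mul_unop, MulOpposite.unop_op, smul_eq_mul,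
      col_apply, down, one]
    split_ifs with h1
    · rw [low_mul hr hs]
    · simp
  · rw [one_eq_zero h, one_eq_zero (by omega : A < i + 1)]
    simp

lemma downT_one (hr : 0 < r) (hs : ∀ i, s (i + 1) = Real.sqrt (r * ((i : ℝ) + 1)) * s i) (i : ℕ) :
    (down A)ᵀ *ᵥ one A s i =
      (r * (i : ℝ) * Real.sqrt (((A : ℝ) - ((i - 1 : ℕ) : ℝ)) / r)) • one A s (i - 1) := by
  funext u
  rcases le_or_gt i A with h | h
  · rw [one_eq_single h, mulVec_single]
    simp only [Pi.smul_apply, MulOpposite.smul_eq_mul_unop, MulOpposite.unop_op, smul_eq_mul,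
      col_apply, transpose_apply, down, one]
    rcases i with _ | j
    · simp
    · simp only [Nat.add_sub_cancel, Nat.cast_add, Nat.cast_one, add_left_inj]
      split_ifs with h1 h2 h3
      · rw [← h1, hs, low, ← mul_assoc]
        congr 1
        rw [← Real.sqrt_mul' _ (by positivity),
          show ((j : ℝ) + 1) * ((A : ℝ) - j) * (r * ((j : ℝ) + 1)) =
            (r * ((j : ℝ) + 1)) ^ 2 * (((A : ℝ) - j) / r) by field_simp,
          Real.sqrt_mul (sq_nonneg _), Real.sqrt_sq (by positivity)]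
      · exact absurd h1.symm h2
      · exact absurd h3.symm h1
      · simp
  · rw [one_eq_zero h]
    simp only [mulVec_zero, Pi.zero_apply, Pi.smul_apply, smul_eq_mul, one]
    split_ifs with h1
    · have h2 : i - 1 = A := by have := u.isLt; omega
      rw [h2, sub_self, zero_div, Real.sqrt_zero, mul_zero, zero_mul]
    · simp

end Lower

/-- One particle vectors. -/
def e1 (Q : ℕ) (x : X1) : CI Q × UI Q → ℝ := ten (one (2 * Q - 2) sC x.1) (one Q sU x.2)

/-- Two particle vectors. -/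
def e2 (Q : ℕ) (x : X2) : CI Q × UI Q × UI Q → ℝ :=
  ten (one (2 * Q - 2) sC x.1) (ten (one Q sU x.2.1) (one Q sU x.2.2))

/-- The squared scale of a planar point. -/
def w1 (x : X1) : ℝ := (2 ^ x.1 * x.1 ! * x.2 ! : ℕ)

/-- The squared scale of a planar point. -/
def w2 (x : X2) : ℝ := (2 ^ x.1 * x.1 ! * x.2.1 ! * x.2.2 ! : ℕ)

lemma e1_single {Q i a : ℕ} (hi : i ≤ 2 * Q - 2) (ha : a ≤ Q) :
    e1 Q (i, a) = Pi.single ((⟨i, by omega⟩, ⟨a, by omega⟩) : CI Q × UI Q) (sC i * sU a) := by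
  funext u
  simp only [e1, ten, one, Pi.single_apply, Prod.ext_iff, Fin.ext_iff]
  split_ifs <;> simp_all

lemma e2_single {Q i a b : ℕ} (hi : i ≤ 2 * Q - 2) (ha : a ≤ Q) (hb : b ≤ Q) :
    e2 Q (i, a, b) = Pi.single
      ((⟨i, by omega⟩, ⟨a, by omega⟩, ⟨b, by omega⟩) : CI Q × UI Q × UI Q)
      (sC i * (sU a * sU b)) := by
  funext u
  simp only [e2, ten, one, Pi.single_apply, Prod.ext_iff, Fin.ext_iff]
  split_ifs <;> simp_all

lemma e1_eq_zero {Q : ℕ} {x : X1} (h : 2 * Q - 2 < x.1 ∨ Q < x.2) : e1 Q x = 0 := by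
  funext u
  rcases h with h | h <;> simp [e1, ten, one_eq_zero h]

lemma e2_eq_zero {Q : ℕ} {x : X2} (h : 2 * Q - 2 < x.1 ∨ Q < x.2.1 ∨ Q < x.2.2) : e2 Q x = 0 := by
  funext u
  rcases h with h | h | h <;> simp [e2, ten, one_eq_zero h]

lemma e1_dot {Q : ℕ} {x : X1} (hi : x.1 ≤ 2 * Q - 2) (ha : x.2 ≤ Q) (y : X1) :
    e1 Q x ⬝ᵥ e1 Q y = if x = y then w1 x else 0 := by
  rw [e1, e1, ten_dot, one_dot_one _ hi, one_dot_one _ ha, sC_sq, sU_sq]
  by_cases h1 : x.1 = y.1 <;> by_cases h2 : x.2 = y.2 <;> simp [Prod.ext_iff, h1, h2, w1]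

lemma e2_dot {Q : ℕ} {x : X2} (hi : x.1 ≤ 2 * Q - 2) (ha : x.2.1 ≤ Q) (hb : x.2.2 ≤ Q) (y : X2) :
    e2 Q x ⬝ᵥ e2 Q y = if x = y then w2 x else 0 := by
  rw [e2, e2, ten_dot, ten_dot, one_dot_one _ hi, one_dot_one _ ha, one_dot_one _ hb, sC_sq, sU_sq,
    sU_sq]
  by_cases h1 : x.1 = y.1 <;> by_cases h2 : x.2.1 = y.2.1 <;> by_cases h3 : x.2.2 = y.2.2 <;>
    simp [Prod.ext_iff, h1, h2, h3, w2, mul_assoc]

/-- The scaled marginal in planar coordinates. -/
def form1 (Q : ℕ) (g : Matrix (CI Q × UI Q) (CI Q × UI Q) ℝ) (x y : X1) : ℝ :=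
  e1 Q x ⬝ᵥ (g *ᵥ e1 Q y)

/-- The scaled two particle marginal in planar coordinates. -/
def form2 (Q : ℕ) (g : Matrix (CI Q × UI Q × UI Q) (CI Q × UI Q × UI Q) ℝ) (x y : X2) : ℝ :=
  e2 Q x ⬝ᵥ (g *ᵥ e2 Q y)

lemma single_form {ι : Type*} [Fintype ι] [DecidableEq ι] (g : Matrix ι ι ℝ) (u v : ι) (a b : ℝ) :
    Pi.single u a ⬝ᵥ (g *ᵥ Pi.single v b) = a * (g u v * b) := by
  rw [single_dotProduct, mulVec_single]
  simp [col_apply]

/-- Entries of a positive semidefinite symmetric matrix with diagonal at most one. -/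
lemma abs_entry_le_one {ι : Type*} [Fintype ι] [DecidableEq ι] {g : Matrix ι ι ℝ}
    (hs : g.IsSymm) (hp : ∀ w, 0 ≤ w ⬝ᵥ (g *ᵥ w)) (hd : ∀ i, g i i ≤ 1) (u v : ι) :
    |g u v| ≤ 1 := by
  have key : ∀ c : ℝ, 0 ≤ g u u + c * (g u v + g v u) + c * c * g v v := fun c => by
    have h := hp (Pi.single u 1 + Pi.single v c)
    rw [mulVec_add, add_dotProduct, dotProduct_add, dotProduct_add, single_form, single_form,
      single_form, single_form] at h
    linarith
  have h1 := key 1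
  have h2 := key (-1)
  rw [hs.apply u v] at h1 h2
  rw [abs_le]
  constructor <;> linarith [hd u, hd v]

end

end Vale.Agent.P359.Gap.Limit
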