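import Vale.Agent.P359.Gap.Limit.Coef
import Vale.Agent.P359.Gap.Spectral.Exchange

/-!
# P359 gap: the limits of marginals are planar
-/

namespace Vale.Agent.P359.Gap.Limit

open Matrix Finset Filter Topology
open scoped Nat

noncomputable section

/-- Marginals on growing spheres together with their limits in planar coordinates. -/
structure Seq where
  /-- The flux. -/
  Q : ℕ → ℕ
  /-- One particle marginals. -/
  g1 : ∀ k, Matrix (CI (Q k) × UI (Q k)) (CI (Q k) × UI (Q k)) ℝ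
  /-- Two particle marginals. -/
  g2 : ∀ k, Matrix (CI (Q k) × UI (Q k) × UI (Q k)) (CI (Q k) × UI (Q k) × UI (Q k)) ℝ
  /-- The filter along which limits are taken. -/
  l : Filter ℕ
  /-- The limit of the one particle marginals. -/
  G1 : X1 → X1 → ℝ
  /-- The limit of the two particle marginals. -/
  G2 : X2 → X2 → ℝ
  hl : l.NeBot
  hm : ∀ k, IsMarginal (Q k) (g1 k) (g2 k)
  hQ : Tendsto Q l atTop
  t1 : ∀ x y, Tendsto (fun k => form1 (Q k) (g1 k) x y) l (𝓝 (G1 x y))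
  t2 : ∀ x y, Tendsto (fun k => form2 (Q k) (g2 k) x y) l (𝓝 (G2 x y))

lemma dot_symm {ι : Type*} [Fintype ι] {g : Matrix ι ι ℝ} (hs : g.IsSymm) (u v : ι → ℝ) :
    u ⬝ᵥ (g *ᵥ v) = v ⬝ᵥ (g *ᵥ u) := by
  rw [dotProduct_mulVec, ← mulVec_transpose, hs.eq, dotProduct_comm]

/-- The weight of a single point. -/
def s1 (x : X1) : ℝ := sC x.1 * sU x.2

/-- The weight of a single point. -/
def s2 (x : X2) : ℝ := sC x.1 * (sU x.2.1 * sU x.2.2)

lemma form1_single {Q : ℕ} (g : Matrix (CI Q × UI Q) (CI Q × UI Q) ℝ) {i a i' a' : ℕ}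
    (hi : i ≤ 2 * Q - 2) (ha : a ≤ Q) (hi' : i' ≤ 2 * Q - 2) (ha' : a' ≤ Q) :
    form1 Q g (i, a) (i', a') =
      s1 (i, a) * (g (⟨i, by omega⟩, ⟨a, by omega⟩) (⟨i', by omega⟩, ⟨a', by omega⟩) * s1 (i', a')) := by
  rw [form1, e1_single hi ha, e1_single hi' ha', single_form]
  rfl

lemma form2_single {Q : ℕ} (g : Matrix (CI Q × UI Q × UI Q) (CI Q × UI Q × UI Q) ℝ)
    {i a b i' a' b' : ℕ} (hi : i ≤ 2 * Q - 2) (ha : a ≤ Q) (hb : b ≤ Q)
    (hi' : i' ≤ 2 * Q - 2) (ha' : a' ≤ Q) (hb' : b' ≤ Q) :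
    form2 Q g (i, a, b) (i', a', b') =
      s2 (i, a, b) * (g (⟨i, by omega⟩, ⟨a, by omega⟩, ⟨b, by omega⟩)
        (⟨i', by omega⟩, ⟨a', by omega⟩, ⟨b', by omega⟩) * s2 (i', a', b')) := by
  rw [form2, e2_single hi ha hb, e2_single hi' ha' hb', single_form]
  rfl

namespace Seq

variable (S : Seq)

lemma big (n : ℕ) : ∀ᶠ k in S.l, n ≤ S.Q k := S.hQ.eventually_ge_atTop n

lemma uniq {f g : ℕ → ℝ} {a b : ℝ} (hf : Tendsto f S.l (𝓝 a)) (hg : Tendsto g S.l (𝓝 b))
    (h : f =ᶠ[S.l] g) : a = b :=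
  haveI := S.hl
  tendsto_nhds_unique_of_eventuallyEq hf hg h

lemma nonneg {f : ℕ → ℝ} {a : ℝ} (hf : Tendsto f S.l (𝓝 a)) (h : ∀ k, 0 ≤ f k) : 0 ≤ a :=
  haveI := S.hl
  ge_of_tendsto' hf h

lemma symm1 (x y : X1) : S.G1 x y = S.G1 y x :=
  S.uniq (S.t1 x y) (S.t1 y x) (Eventually.of_forall fun k => dot_symm (S.hm k).symm1 _ _)

lemma symm2 (x y : X2) : S.G2 x y = S.G2 y x :=
  S.uniq (S.t2 x y) (S.t2 y x) (Eventually.of_forall fun k => dot_symm (S.hm k).symm2 _ _)

lemma psd1 (p : List (X1 × ℝ)) : 0 ≤ bil S.G1 p p := by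
  rw [bil_eq]
  refine S.nonneg (f := fun k => lsum p fun x => lsum p (form1 (S.Q k) (S.g1 k) x))
    (tendsto_lsum p fun x _ => tendsto_lsum p fun y _ => S.t1 x.1 y.1) fun k => ?_
  unfold form1
  rw [← vec_form]
  exact (S.hm k).psd1 _

lemma psd2 (p : List (X2 × ℝ)) : 0 ≤ bil S.G2 p p := by
  rw [bil_eq]
  refine S.nonneg (f := fun k => lsum p fun x => lsum p (form2 (S.Q k) (S.g2 k) x))
    (tendsto_lsum p fun x _ => tendsto_lsum p fun y _ => S.t2 x.1 y.1) fun k => ?_
  unfold form2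
  rw [← vec_form]
  exact (S.hm k).psd2 _

lemma anti (i a b : ℕ) (y : X2) : S.G2 (i, a, b) y = -S.G2 (i, b, a) y := by
  refine S.uniq (S.t2 _ y) (S.t2 (i, b, a) y).neg ?_
  obtain ⟨i', a', b'⟩ := y
  filter_upwards [S.big (i + a + b + i' + a' + b' + 2)] with k hk
  rw [form2_single _ (by omega) (by omega) (by omega) (by omega) (by omega) (by omega),
    form2_single _ (by omega) (by omega) (by omega) (by omega) (by omega) (by omega),
    (S.hm k).anti]
  simp only [s2]
  ring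

lemma level1 (i a i' a' : ℕ) (h : i + a ≠ i' + a') : S.G1 (i, a) (i', a') = 0 := by
  refine S.uniq (S.t1 _ _) tendsto_const_nhds ?_
  filter_upwards [S.big (i + a + i' + a' + 2)] with k hk
  rw [form1_single _ (by omega) (by omega) (by omega) (by omega), (S.hm k).level1 _ _ h, zero_mul,
    mul_zero]

lemma level2 (i a b i' a' b' : ℕ) (h : i + a + b ≠ i' + a' + b') :
    S.G2 (i, a, b) (i', a', b') = 0 := by
  refine S.uniq (S.t2 _ _) tendsto_const_nhds ?_
  filter_upwards [S.big (i + a + b + i' + a' + b' + 2)] with k hk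
  rw [form2_single _ (by omega) (by omega) (by omega) (by omega) (by omega) (by omega),
    (S.hm k).level2 _ _ h, zero_mul, mul_zero]

lemma shift1 (i a i' a' : ℕ) :
    S.G1 (i, a) (i' + 1, a') + S.G1 (i, a) (i', a' + 1) =
      2 * (i : ℝ) * S.G1 (i - 1, a) (i', a') + (a : ℝ) * S.G1 (i, a - 1) (i', a') := by
  have hl := ((tend_cC S.hQ i').mul (S.t1 (i, a) (i' + 1, a'))).add
    ((tend_cU S.hQ a').mul (S.t1 (i, a) (i', a' + 1)))
  have hr := (((tend_cC S.hQ (i - 1)).mul (S.t1 (i - 1, a) (i', a'))).const_mul (2 * (i : ℝ))).add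
    (((tend_cU S.hQ (a - 1)).mul (S.t1 (i, a - 1) (i', a'))).const_mul (a : ℝ))
  simp only [one_mul] at hl hr
  refine S.uniq hl hr (Eventually.of_forall fun k => ?_)
  linear_combination (Real.sqrt (S.Q k : ℝ))⁻¹ * form1_shift (S.hm k).comm1 i a i' a'

lemma shift2 (i a b i' a' b' : ℕ) :
    S.G2 (i, a, b) (i' + 1, a', b') + S.G2 (i, a, b) (i', a' + 1, b') +
        S.G2 (i, a, b) (i', a', b' + 1) =
      2 * (i : ℝ) * S.G2 (i - 1, a, b) (i', a', b') + (a : ℝ) * S.G2 (i, a - 1, b) (i', a', b') +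
        (b : ℝ) * S.G2 (i, a, b - 1) (i', a', b') := by
  have hl := (((tend_cC S.hQ i').mul (S.t2 (i, a, b) (i' + 1, a', b'))).add
    ((tend_cU S.hQ a').mul (S.t2 (i, a, b) (i', a' + 1, b')))).add
    ((tend_cU S.hQ b').mul (S.t2 (i, a, b) (i', a', b' + 1)))
  have hr := ((((tend_cC S.hQ (i - 1)).mul (S.t2 (i - 1, a, b) (i', a', b'))).const_mul
    (2 * (i : ℝ))).add
    (((tend_cU S.hQ (a - 1)).mul (S.t2 (i, a - 1, b) (i', a', b'))).const_mul (a : ℝ))).add
    (((tend_cU S.hQ (b - 1)).mul (S.t2 (i, a, b - 1) (i', a', b'))).const_mul (b : ℝ))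
  simp only [one_mul] at hl hr
  refine S.uniq hl hr (Eventually.of_forall fun k => ?_)
  linear_combination (Real.sqrt (S.Q k : ℝ))⁻¹ * form2_shift (S.hm k).comm2 i a b i' a' b'

lemma hole (p : List (X1 × ℝ)) : 0 ≤
    bil (fun x y => if x = y then (2 ^ x.1 * x.1 ! * x.2 ! : ℕ) else 0) p p -
      bil (fun x y => S.G1 (x.1, y.2) (y.1, x.2)) p p := by
  rw [bil_eq, bil_eq]
  let T : ∀ k, Matrix (CI (S.Q k) × UI (S.Q k)) (CI (S.Q k) × UI (S.Q k)) ℝ :=
    fun k x y => S.g1 k (x.1, y.2) (y.1, x.2)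
  refine S.nonneg
    (f := fun k => (lsum p fun x => lsum p fun y => e1 (S.Q k) x ⬝ᵥ e1 (S.Q k) y) -
      lsum p fun x => lsum p fun y => e1 (S.Q k) x ⬝ᵥ (T k *ᵥ e1 (S.Q k) y))
    (Tendsto.sub ?_ ?_) fun k => ?_
  · refine tendsto_lsum p fun x _ => tendsto_lsum p fun y _ => ?_
    refine tendsto_const_nhds.congr' ?_
    obtain ⟨⟨i, a⟩, -⟩ := x
    filter_upwards [S.big (i + a + 2)] with k hk
    rw [e1_dot (x := (i, a)) (by simp only; omega) (by simp only; omega)]
    rfl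
  · refine tendsto_lsum p fun x _ => tendsto_lsum p fun y _ => ?_
    obtain ⟨⟨i, a⟩, -⟩ := x
    obtain ⟨⟨i', a'⟩, -⟩ := y
    refine (S.t1 (i, a') (i', a)).congr' ?_
    filter_upwards [S.big (i + a + i' + a' + 2)] with k hk
    rw [form1_single _ (by omega) (by omega) (by omega) (by omega),
      e1_single (by omega) (by omega), e1_single (by omega) (by omega), single_form]
    simp only [T, s1]
    ring
  · have hh := (S.hm k).hole fun C j => vec (e1 (S.Q k)) p (C, j)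
    have h1 := vec_form (e1 (S.Q k)) (e1 (S.Q k)) (T k) p p
    have h2 := vec_form (e1 (S.Q k)) (e1 (S.Q k)) 1 p p
    simp only [one_mulVec] at h2
    rw [← h1, ← h2]
    convert hh using 2
    · simp [dotProduct, Fintype.sum_prod_type, sq]
    · simp only [dotProduct, mulVec, T, Fintype.sum_prod_type, Finset.mul_sum]
      exact Finset.sum_congr rfl fun C _ => Finset.sum_congr rfl fun j _ =>
        Finset.sum_congr rfl fun C' _ => Finset.sum_congr rfl fun j' _ => by ring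

lemma map2_eq {α γ : Type*} (H : α → γ → ℝ) (p : List (α × ℝ)) (q : List (γ × ℝ)) :
    (p.map fun x => (q.map fun y => x.2 * y.2 * H x.1 y.1).sum).sum =
      lsum p fun x => lsum q (H x) := by
  simp only [lsum, mul_assoc, List.sum_map_mul_left]

lemma partHole (u : List (ℕ × ℝ)) (p : List (X2 × ℝ)) : 0 ≤
    bil (fun i i' => if i = i' then (2 ^ i * i ! : ℕ) else 0) u u +
      2 * (p.map fun x =>
        (u.map fun z => x.2 * z.2 * S.G1 (x.1.1, x.1.2.1) (z.1, x.1.2.2)).sum).sum +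
      bil (fun x y => (if x.2.2 = y.2.2 then (x.2.2 ! : ℝ) * S.G1 (x.1, x.2.1) (y.1, y.2.1) else 0) +
        S.G2 (x.1, x.2.1, y.2.2) (y.1, x.2.2, y.2.1)) p p := by
  rw [map2_eq (fun (x : X2) (z : ℕ) => S.G1 (x.1, x.2.1) (z, x.2.2)), bil_eq, bil_eq]
  let eC : ∀ k, ℕ → CI (S.Q k) → ℝ := fun k i => one (2 * S.Q k - 2) sC i
  let M : ∀ k, Matrix (CI (S.Q k) × UI (S.Q k) × UI (S.Q k)) (CI (S.Q k)) ℝ :=
    fun k x C' => S.g1 k (x.1, x.2.1) (C', x.2.2)
  let N : ∀ k, Matrix (CI (S.Q k) × UI (S.Q k) × UI (S.Q k))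
      (CI (S.Q k) × UI (S.Q k) × UI (S.Q k)) ℝ :=
    fun k x y => (if x.2.2 = y.2.2 then S.g1 k (x.1, x.2.1) (y.1, y.2.1) else 0) +
      S.g2 k (x.1, x.2.1, y.2.2) (y.1, x.2.2, y.2.1)
  refine S.nonneg
    (f := fun k => (lsum u fun i => lsum u fun i' => eC k i ⬝ᵥ eC k i') +
      2 * (lsum p fun x => lsum u fun z => e2 (S.Q k) x ⬝ᵥ (M k *ᵥ eC k z)) +
      lsum p fun x => lsum p fun y => e2 (S.Q k) x ⬝ᵥ (N k *ᵥ e2 (S.Q k) y))
    ((Tendsto.add ?_ (Tendsto.const_mul _ ?_)).add ?_) fun k => ?_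
  · refine tendsto_lsum u fun x _ => tendsto_lsum u fun y _ => ?_
    refine tendsto_const_nhds.congr' ?_
    filter_upwards [S.big (x.1 + 2)] with k hk
    rw [one_dot_one _ (by omega), sC_sq]
  · refine tendsto_lsum p fun x _ => tendsto_lsum u fun z _ => ?_
    obtain ⟨⟨i, a, b⟩, -⟩ := x
    obtain ⟨i', -⟩ := z
    refine (S.t1 (i, a) (i', b)).congr' ?_
    filter_upwards [S.big (i + a + b + i' + 2)] with k hk
    simp only [eC]
    rw [form1_single _ (by omega) (by omega) (by omega) (by omega),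
      e2_single (by omega) (by omega) (by omega), one_eq_single (by omega), single_dotProduct,
      mulVec_single]
    simp only [Pi.smul_apply, MulOpposite.smul_eq_mul_unop, MulOpposite.unop_op, Matrix.col, transpose_apply]
    simp only [M, s1]
    ring
  · refine tendsto_lsum p fun x _ => tendsto_lsum p fun y _ => ?_
    obtain ⟨⟨i, a, b⟩, -⟩ := x
    obtain ⟨⟨i', a', b'⟩, -⟩ := y
    have hg : Tendsto (fun k => (if b = b' then (b ! : ℝ) * form1 (S.Q k) (S.g1 k) (i, a) (i', a')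
        else 0) + form2 (S.Q k) (S.g2 k) (i, a, b') (i', b, a')) S.l
        (𝓝 ((if b = b' then (b ! : ℝ) * S.G1 (i, a) (i', a') else 0) +
          S.G2 (i, a, b') (i', b, a'))) := by
      refine Tendsto.add ?_ (S.t2 _ _)
      split_ifs
      · exact (S.t1 _ _).const_mul _
      · exact tendsto_const_nhds
    refine hg.congr' ?_
    filter_upwards [S.big (i + a + b + i' + a' + b' + 2)] with k hk
    rw [form1_single _ (by omega) (by omega) (by omega) (by omega),
      form2_single _ (by omega) (by omega) (by omega) (by omega) (by omega) (by omega),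
      e2_single (by omega) (by omega) (by omega), e2_single (by omega) (by omega) (by omega),
      single_form]
    simp only [N, s1, s2, Fin.mk.injEq]
    split_ifs with hb
    · subst hb
      have := sU_sq b
      linear_combination (-(sC i * sU a * sC i' * sU a' *
        S.g1 k (⟨i, by omega⟩, ⟨a, by omega⟩) (⟨i', by omega⟩, ⟨a', by omega⟩))) * this
    · ring
  · have hh := (S.hm k).partHole (vec (eC k) u) fun C a j => vec (e2 (S.Q k)) p (C, a, j)
    have h1 := vec_form (e2 (S.Q k)) (eC k) (M k) p u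
    have h2 := vec_form (e2 (S.Q k)) (e2 (S.Q k)) (N k) p p
    have h3 := vec_form (eC k) (eC k) 1 u u
    simp only [one_mulVec] at h3
    rw [← h1, ← h2, ← h3]
    convert hh using 3
    · simp [dotProduct, sq]
    · congr 1
      simp only [dotProduct, mulVec, M, Fintype.sum_prod_type, Finset.mul_sum]
      exact Finset.sum_congr rfl fun C _ => Finset.sum_congr rfl fun a _ =>
        Finset.sum_congr rfl fun j _ => Finset.sum_congr rfl fun C' _ => by ring
    · simp only [dotProduct, mulVec, N, Fintype.sum_prod_type, Finset.mul_sum]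
      exact Finset.sum_congr rfl fun C _ => Finset.sum_congr rfl fun a _ =>
        Finset.sum_congr rfl fun j _ => Finset.sum_congr rfl fun C' _ =>
          Finset.sum_congr rfl fun a' _ => Finset.sum_congr rfl fun j' _ => by ring

lemma lsum_flat {α : Type*} (n : ℕ) (F : ℕ → List (α × ℝ)) (f : α → ℝ) :
    lsum ((List.range n).flatMap F) f = ∑ i ∈ range n, lsum (F i) f := by
  induction n with
  | zero => rfl
  | succ n ih =>
    rw [List.range_succ, List.flatMap_append, Finset.sum_range_succ, ← ih]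
    simp [lsum]

lemma lsum_range {α : Type*} (n : ℕ) (h : ℕ → α × ℝ) (f : α → ℝ) :
    lsum ((List.range n).map h) f = ∑ i ∈ range n, (h i).2 * f (h i).1 := by
  induction n with
  | zero => rfl
  | succ n ih =>
    rw [List.range_succ, List.map_append, Finset.sum_range_succ, ← ih]
    simp [lsum]

lemma zeta_sum (M t : ℕ) (f : X1 → ℝ) :
    lsum (zeta M t) f = ∑ i ∈ range (M + 1), hz M i *
      ∑ s ∈ range (t + 1), (t.choose s : ℝ) * f (i + s, M - i + (t - s)) := by
  rw [zeta, lsum_flat]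
  refine Finset.sum_congr rfl fun i _ => ?_
  rw [lsum_range, Finset.mul_sum]
  exact Finset.sum_congr rfl fun s _ => by rw [hz]; ring

lemma zeta_zero (M : ℕ) (f : X1 → ℝ) :
    lsum (zeta M 0) f = ∑ i ∈ range (M + 1), hz M i * f (i, M - i) := by
  simp [zeta_sum]

lemma zeta_succ (M t : ℕ) (f : X1 → ℝ) :
    lsum (zeta M (t + 1)) f =
      lsum (zeta M t) fun x => f (x.1 + 1, x.2) + f (x.1, x.2 + 1) := by
  rw [zeta_sum, zeta_sum]
  refine Finset.sum_congr rfl fun i _ => congrArg _ ?_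
  rw [Finset.sum_choose_succ_mul (fun s u => f (i + s, M - i + u)) t, ← Finset.sum_add_distrib]
  refine Finset.sum_congr rfl fun s hs => ?_
  rw [Finset.mem_range] at hs
  rw [show t + 1 - s = t - s + 1 by omega, ← add_assoc (M - i), ← add_assoc i]
  ring

lemma kernel (k : ℕ) (hk : 3 ≤ S.Q k) {M : ℕ} (hM : M ∈ ({0, 1, 3} : Finset ℕ)) :
    Kmat (S.Q k) *ᵥ hw (2 * S.Q k - 2) (S.Q k) M = -hw (2 * S.Q k - 2) (S.Q k) M :=
  Kmat_hw_neg hk hM

lemma vanish1_zero {M : ℕ} (hM : M ∈ ({0, 1, 3} : Finset ℕ)) (y : X1) :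
    lsum (zeta M 0) (fun x => S.G1 x y) = 0 := by
  rw [zeta_zero]
  simp only [fun i => S.symm1 (i, M - i) y]
  refine S.uniq (tendsto_finsetSum _ fun i _ => (tend_hC S.hQ M i).mul (S.t1 y (i, M - i)))
    tendsto_const_nhds ?_
  filter_upwards [S.big (M + 3)] with k hk
  have h0 : S.g1 k *ᵥ (hS (S.Q k) M • hw (2 * S.Q k - 2) (S.Q k) M) = 0 := by
    rw [mulVec_smul, (S.hm k).vanish1 _ (S.kernel k (by omega) hM), smul_zero]
  rw [hw_scaled (by omega) (by omega)] at h0
  have h1 := congrArg (fun v => e1 (S.Q k) y ⬝ᵥ v) h0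
  simpa [mulVec_sum, dotProduct_sum, mulVec_smul, form1] using h1

lemma vanish1 {M : ℕ} (hM : M ∈ ({0, 1, 3} : Finset ℕ)) :
    ∀ t y, lsum (zeta M t) (fun x => S.G1 x y) = 0 := by
  intro t
  induction t with
  | zero => exact S.vanish1_zero hM
  | succ t ih =>
    intro y
    obtain ⟨i, a⟩ := y
    rw [zeta_succ, lsum_congr (g := fun x => 2 * (i : ℝ) * S.G1 x (i - 1, a) +
      (a : ℝ) * S.G1 x (i, a - 1))]
    · rw [lsum_add, lsum_mul, lsum_mul, ih, ih, mul_zero, mul_zero, add_zero]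
    · intro x _
      rw [S.symm1 _ (i, a), S.symm1 _ (i, a), S.shift1, S.symm1 _ (i - 1, a),
        S.symm1 _ (i, a - 1)]

lemma vanish2_zero {M : ℕ} (hM : M ∈ ({0, 1, 3} : Finset ℕ)) (b : ℕ) (y : X2) :
    lsum (zeta M 0) (fun x => S.G2 (x.1, x.2, b) y) = 0 := by
  rw [zeta_zero]
  obtain ⟨i', a', b'⟩ := y
  refine S.uniq
    (tendsto_finsetSum _ fun i _ => (tend_hC S.hQ M i).mul (S.t2 (i, M - i, b) (i', a', b')))
    tendsto_const_nhds ?_
  filter_upwards [S.big (M + 3 + b + i' + a' + b')] with k hk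
  let row : CI (S.Q k) × UI (S.Q k) → ℝ := fun w => sU b *
    (S.g2 k (w.1, w.2, ⟨b, by omega⟩) (⟨i', by omega⟩, ⟨a', by omega⟩, ⟨b', by omega⟩) *
      s2 (i', a', b'))
  have h0 : hw (2 * S.Q k - 2) (S.Q k) M ⬝ᵥ row = 0 := by
    have hv := (S.hm k).vanish2 _ (S.kernel k (by omega) hM) ⟨b, by omega⟩
      (⟨i', by omega⟩, ⟨a', by omega⟩, ⟨b', by omega⟩)
    have := congrArg (fun v => v * (sU b * s2 (i', a', b'))) hv
    simp only [zero_mul, Finset.sum_mul] at this
    rw [← this]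
    exact Finset.sum_congr rfl fun w _ => by simp only [row]; ring
  have h1 : (hS (S.Q k) M • hw (2 * S.Q k - 2) (S.Q k) M) ⬝ᵥ row = 0 := by
    rw [smul_dotProduct, h0, smul_zero]
  rw [hw_scaled (by omega) (by omega), sum_dotProduct] at h1
  rw [← h1]
  refine Finset.sum_congr rfl fun i hi => ?_
  rw [Finset.mem_range] at hi
  rw [smul_dotProduct, smul_eq_mul, e1_single (by omega) (by omega), single_dotProduct,
    form2_single _ (by omega) (by omega) (by omega) (by omega) (by omega) (by omega)]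
  simp only [row, s2]
  ring

lemma vanish2 {M : ℕ} (hM : M ∈ ({0, 1, 3} : Finset ℕ)) :
    ∀ t b y, lsum (zeta M t) (fun x => S.G2 (x.1, x.2, b) y) = 0 := by
  intro t
  induction t with
  | zero => exact S.vanish2_zero hM
  | succ t ih =>
    intro b y
    obtain ⟨i, a, c⟩ := y
    rw [zeta_succ, lsum_congr (g := fun x => 2 * (i : ℝ) * S.G2 (x.1, x.2, b) (i - 1, a, c) +
      (a : ℝ) * S.G2 (x.1, x.2, b) (i, a - 1, c) + (c : ℝ) * S.G2 (x.1, x.2, b) (i, a, c - 1) +
        (-1) * S.G2 (x.1, x.2, b + 1) (i, a, c))]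
    · simp only [lsum_add, lsum_mul, ih, mul_zero, add_zero]
    · intro x _
      rw [S.symm2 _ (i, a, c), S.symm2 _ (i, a, c), S.symm2 (x.1.1, x.1.2, b + 1) (i, a, c),
        S.symm2 _ (i - 1, a, c), S.symm2 _ (i, a - 1, c), S.symm2 _ (i, a, c - 1)]
      linear_combination S.shift2 i a c x.1.1 x.1.2 b

/-- Limits of marginals are planar. -/
theorem isPlanar : IsPlanar S.G1 S.G2 where
  symm1 := S.symm1
  symm2 := S.symm2
  psd1 := S.psd1
  psd2 := S.psd2
  anti := S.anti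
  level1 := S.level1
  level2 := S.level2
  shift1 := S.shift1
  shift2 := S.shift2
  vanish1 _ hM t y := S.vanish1 hM t y
  vanish2 _ hM t b y := S.vanish2 hM t b y
  hole := S.hole
  partHole := S.partHole

end Seq

end

end Vale.Agent.P359.Gap.Limit
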