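import Vale.Agent.P359.Gap.Limit.Coord

/-!
# P359 gap: lowering becomes a shift in the planar limit
-/

namespace Vale.Agent.P359.Gap.Limit

open Matrix Finset Nat Filter Topology

noncomputable section

variable {β : Type*} {l : Filter β} {Q : β → ℕ}

lemma tend_inv (hQ : Tendsto Q l atTop) (c : ℝ) :
    Tendsto (fun k => c / (Q k : ℝ)) l (𝓝 0) :=
  tendsto_const_nhds.div_atTop (tendsto_natCast_atTop_atTop.comp hQ)

/-- A shifted square root over the square root of the flux. -/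
lemma tend_ratio (hQ : Tendsto Q l atTop) {r : ℝ} (hr : 0 < r) {A : β → ℝ} (c : ℝ)
    (hA : ∀ᶠ k in l, A k = r * Q k + c) :
    Tendsto (fun k => Real.sqrt (A k / r) / Real.sqrt (Q k)) l (𝓝 1) := by
  have h : Tendsto (fun k => Real.sqrt (1 + c / r / (Q k : ℝ))) l (𝓝 (Real.sqrt (1 + 0))) :=
    (tendsto_const_nhds.add (tend_inv hQ (c / r))).sqrt
  rw [add_zero, Real.sqrt_one] at h
  refine h.congr' ?_
  filter_upwards [hA, hQ.eventually_ge_atTop 1] with k hk hk1
  have : (0 : ℝ) < Q k := by exact_mod_cast hk1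
  rw [hk, ← Real.sqrt_div' _ this.le]
  congr 1
  field_simp

/-- Falling factorials against powers. -/
lemma tend_desc (hQ : Tendsto Q l atTop) {r : ℝ} (hr : 0 < r) {A : β → ℕ} (c : ℝ)
    (hA : ∀ᶠ k in l, (A k : ℝ) = r * Q k + c) (i : ℕ) :
    Tendsto (fun k => ((A k).descFactorial i : ℝ) / (r * Q k) ^ i) l (𝓝 1) := by
  induction i with
  | zero => simpa using tendsto_const_nhds
  | succ i ih =>
    have h : Tendsto (fun k => 1 + (c - i) / r / (Q k : ℝ)) l (𝓝 1) := by
      simpa using tendsto_const_nhds.add (tend_inv hQ ((c - i) / r))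
    have h' := h.mul ih
    rw [one_mul] at h'
    refine h'.congr' ?_
    filter_upwards [hA, hQ.eventually_ge_atTop 1, (tendsto_natCast_atTop_atTop.comp hQ
      : Tendsto (fun k => ((Q k : ℕ) : ℝ)) l atTop).eventually_ge_atTop ((i - c) / r)] with k hk hk1 hk2
    have : (0 : ℝ) < Q k := by exact_mod_cast hk1
    rw [div_le_iff₀ hr] at hk2
    have hi : i ≤ A k := by
      simp only [Function.comp] at hk2
      have h2 : (i : ℝ) ≤ A k := by rw [hk]; linarith
      exact_mod_cast h2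
    rw [Nat.descFactorial_succ, Nat.cast_mul, Nat.cast_sub hi, hk, pow_succ]
    field_simp
    ring

lemma shift_form {ι : Type*} [Fintype ι] {g D : Matrix ι ι ℝ} (hc : g * D = D * g)
    {u v w z : ι → ℝ} (hD : D *ᵥ v = w) (hDT : Dᵀ *ᵥ u = z) :
    u ⬝ᵥ (g *ᵥ w) = z ⬝ᵥ (g *ᵥ v) := by
  rw [← hD, ← hDT, mulVec_mulVec, hc, ← mulVec_mulVec, dotProduct_mulVec,
    show u ᵥ* D = Dᵀ *ᵥ u from (mulVec_transpose D u).symm]

lemma cast_A {k : ℕ} (hk : 1 ≤ k) : ((2 * k - 2 : ℕ) : ℝ) = 2 * (k : ℝ) + -2 := by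
  rw [Nat.cast_sub (by omega)]
  push_cast
  ring

/-- The raising amplitude at the centre, over the square root of the flux. -/
def cC (Q i : ℕ) : ℝ := Real.sqrt ((((2 * Q - 2 : ℕ) : ℝ) - i) / 2)

/-- The raising amplitude of a particle. -/
def cU (Q a : ℕ) : ℝ := Real.sqrt (((Q : ℝ) - a) / 1)

lemma tend_cC (hQ : Tendsto Q l atTop) (i : ℕ) :
    Tendsto (fun k => cC (Q k) i / Real.sqrt (Q k)) l (𝓝 1) :=
  tend_ratio hQ two_pos (-2 - (i : ℝ)) (by
    filter_upwards [hQ.eventually_ge_atTop 1] with k hk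
    rw [cast_A hk]
    ring)

lemma tend_cU (hQ : Tendsto Q l atTop) (a : ℕ) :
    Tendsto (fun k => cU (Q k) a / Real.sqrt (Q k)) l (𝓝 1) :=
  tend_ratio hQ one_pos (-(a : ℝ)) (Eventually.of_forall fun k => by ring)

lemma form1_shift {Q : ℕ} {g : Matrix (CI Q × UI Q) (CI Q × UI Q) ℝ}
    (hc : g * down2 (2 * Q - 2) Q = down2 (2 * Q - 2) Q * g) (i a i' a' : ℕ) :
    cC Q i' * form1 Q g (i, a) (i' + 1, a') + cU Q a' * form1 Q g (i, a) (i', a' + 1) =
      2 * (i : ℝ) * cC Q (i - 1) * form1 Q g (i - 1, a) (i', a') +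
        (a : ℝ) * cU Q (a - 1) * form1 Q g (i, a - 1) (i', a') := by
  have hD : down2 (2 * Q - 2) Q *ᵥ e1 Q (i', a') =
      cC Q i' • e1 Q (i' + 1, a') + cU Q a' • e1 Q (i', a' + 1) := by
    rw [show down2 (2 * Q - 2) Q = ksum (down (2 * Q - 2)) (down Q) from rfl, e1, ksum_ten,
      down_one two_pos sC_succ, down_one one_pos sU_succ, ten_smul_left, ten_smul_right]
    rfl
  have hDT : (down2 (2 * Q - 2) Q)ᵀ *ᵥ e1 Q (i, a) =
      (2 * (i : ℝ) * cC Q (i - 1)) • e1 Q (i - 1, a) +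
        (1 * (a : ℝ) * cU Q (a - 1)) • e1 Q (i, a - 1) := by
    rw [show down2 (2 * Q - 2) Q = ksum (down (2 * Q - 2)) (down Q) from rfl, ksum_transpose, e1,
      ksum_ten, downT_one two_pos sC_succ, downT_one one_pos sU_succ, ten_smul_left, ten_smul_right]
    rfl
  have h := shift_form hc hD hDT
  rw [mulVec_add, mulVec_smul, mulVec_smul, dotProduct_add, dotProduct_smul, dotProduct_smul,
    add_dotProduct, smul_dotProduct, smul_dotProduct, one_mul] at h
  exact h

lemma form2_shift {Q : ℕ} {g : Matrix (CI Q × UI Q × UI Q) (CI Q × UI Q × UI Q) ℝ}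
    (hc : g * down3 Q = down3 Q * g) (i a b i' a' b' : ℕ) :
    cC Q i' * form2 Q g (i, a, b) (i' + 1, a', b') + cU Q a' * form2 Q g (i, a, b) (i', a' + 1, b') +
        cU Q b' * form2 Q g (i, a, b) (i', a', b' + 1) =
      2 * (i : ℝ) * cC Q (i - 1) * form2 Q g (i - 1, a, b) (i', a', b') +
        (a : ℝ) * cU Q (a - 1) * form2 Q g (i, a - 1, b) (i', a', b') +
        (b : ℝ) * cU Q (b - 1) * form2 Q g (i, a, b - 1) (i', a', b') := by
  have hD : down3 Q *ᵥ e2 Q (i', a', b') = cC Q i' • e2 Q (i' + 1, a', b') +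
      (cU Q a' • e2 Q (i', a' + 1, b') + cU Q b' • e2 Q (i', a', b' + 1)) := by
    rw [show down3 Q = ksum (down (2 * Q - 2)) (ksum (down Q) (down Q)) from rfl, e2, ksum_ten,
      ksum_ten, down_one two_pos sC_succ, down_one one_pos sU_succ, down_one one_pos sU_succ,
      ten_smul_left, ten_smul_left, ten_smul_right, ten_add_right, ten_smul_right, ten_smul_right]
    rfl
  have hDT : (down3 Q)ᵀ *ᵥ e2 Q (i, a, b) = (2 * (i : ℝ) * cC Q (i - 1)) • e2 Q (i - 1, a, b) +
      ((1 * (a : ℝ) * cU Q (a - 1)) • e2 Q (i, a - 1, b) +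
        (1 * (b : ℝ) * cU Q (b - 1)) • e2 Q (i, a, b - 1)) := by
    rw [show down3 Q = ksum (down (2 * Q - 2)) (ksum (down Q) (down Q)) from rfl, ksum_transpose,
      ksum_transpose, e2, ksum_ten, ksum_ten, downT_one two_pos sC_succ, downT_one one_pos sU_succ,
      downT_one one_pos sU_succ, ten_smul_left, ten_smul_left, ten_smul_right, ten_add_right,
      ten_smul_right, ten_smul_right]
    rfl
  have h := shift_form hc hD hDT
  simp only [mulVec_add, mulVec_smul, dotProduct_add, dotProduct_smul, add_dotProduct,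
    smul_dotProduct, one_mul, smul_eq_mul] at h
  simp only [form2]
  linear_combination h

end

end Vale.Agent.P359.Gap.Limit
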